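import Vale.Agent.Lib.P042.RuzsaSqfree

namespace Vale.Agent.Lib.P042

open Finset

/-- A finite (decidable) criterion for the hypothesis of the digit construction. -/
lemma avoid_of_range {m k : ℕ} (hm : 0 < m) {R0 : Finset ℕ}
    (h : ∀ r ∈ R0, ∀ r' ∈ R0, r ≠ r' → ∀ z ∈ range m, (r' + z ^ k) % m ≠ r % m) :
    ∀ r ∈ R0, ∀ r' ∈ R0, r ≠ r' → ∀ y : ℤ, ¬ ((m : ℤ) ∣ ((r : ℤ) - r' - y ^ k)) := by
  intro r hr r' hr' hne y hdvd
  have hm' : (0 : ℤ) < m := by exact_mod_cast hm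
  set z : ℕ := (y % m).toNat with hz
  have hz0 : 0 ≤ y % m := Int.emod_nonneg _ hm'.ne'
  have hzc : (z : ℤ) = y % m := Int.toNat_of_nonneg hz0
  have hzlt : z < m := by
    have : (z : ℤ) < m := by rw [hzc]; exact Int.emod_lt_of_pos _ hm'
    exact_mod_cast this
  have h1 : (m : ℤ) ∣ y - z := by
    rw [hzc]; exact Int.dvd_self_sub_emod
  have h2 : (m : ℤ) ∣ y ^ k - (z : ℤ) ^ k := h1.trans (sub_dvd_pow_sub_pow _ _ _)
  have h3 : (m : ℤ) ∣ (r : ℤ) - (r' + (z : ℤ) ^ k) := by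
    have := dvd_add hdvd h2
    have e : ((r : ℤ) - r' - y ^ k) + (y ^ k - (z : ℤ) ^ k) = (r : ℤ) - (r' + (z : ℤ) ^ k) := by ring
    rwa [e] at this
  apply h r hr r' hr' hne z (mem_range.mpr hzlt)
  have h4 : ((r' + z ^ k : ℕ) : ℤ) ≡ (r : ℤ) [ZMOD m] := by
    rw [Int.modEq_iff_dvd]; push_cast; exact h3
  exact (Int.natCast_modEq_iff.mp h4)

end Vale.Agent.Lib.P042
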