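import Mathlib

/-!
Generalised Ruzsa digit construction: from a set `R` of residues modulo a perfect `k`-th power
`m ^ k` (with `m` arbitrary) no two of which differ by a `k`-th power residue, one gets
subsets of `[1, N]` of size at least `N ^ γ / |R|`, `γ = log |R| / log (m ^ k)`, no two of whose
elements differ by a `k`-th power of an integer.
-/

namespace Vale.Agent.Lib.P042

open Finset

/-- The set of all `d_0 + d_1 M + ... + d_{t-1} M^(t-1)` with all digits `d_i` in `R`. -/
def digitSet (M : ℕ) (R : Finset ℕ) : ℕ → Finset ℕ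
  | 0 => {0}
  | (t + 1) => (R ×ˢ digitSet M R t).image (fun x => x.1 + M * x.2)

lemma digitSet_lt {M : ℕ} {R : Finset ℕ} (hR : ∀ r ∈ R, r < M) :
    ∀ t, ∀ a ∈ digitSet M R t, a < M ^ t := by
  intro t
  induction t with
  | zero => intro a ha; simp [digitSet] at ha; simp [ha]
  | succ t ih =>
    intro a ha
    simp only [digitSet, mem_image, mem_product, Prod.exists] at ha
    obtain ⟨d, b, ⟨hd, hb⟩, rfl⟩ := ha
    have h1 := hR d hd
    have h2 := ih b hb
    calc d + M * b < M + M * b := by omega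
      _ = M * (b + 1) := by ring
      _ ≤ M * M ^ t := Nat.mul_le_mul_left _ h2
      _ = M ^ (t + 1) := by ring

lemma digitSet_card {M : ℕ} {R : Finset ℕ} (hR : ∀ r ∈ R, r < M) :
    ∀ t, (digitSet M R t).card = R.card ^ t := by
  intro t
  induction t with
  | zero => simp [digitSet]
  | succ t ih =>
    simp only [digitSet]
    rw [card_image_of_injOn, card_product, ih]
    · ring
    · intro x hx y hy hxy
      simp only [coe_product, Set.mem_prod, mem_coe] at hx hy
      have hx1 := hR _ hx.1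
      have hy1 := hR _ hy.1
      simp only at hxy
      have hMpos : 0 < M := by omega
      have e1 : (x.1 + M * x.2) % M = x.1 := by
        rw [Nat.add_mul_mod_self_left, Nat.mod_eq_of_lt hx1]
      have e2 : (y.1 + M * y.2) % M = y.1 := by
        rw [Nat.add_mul_mod_self_left, Nat.mod_eq_of_lt hy1]
      have h1 : x.1 = y.1 := by rw [← e1, ← e2, hxy]
      have h2 : M * x.2 = M * y.2 := by omega
      have h3 : x.2 = y.2 := Nat.eq_of_mul_eq_mul_left hMpos h2
      exact Prod.ext h1 h3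

lemma digitSet_avoid {m k : ℕ} (hk : k ≠ 0) (hm : 0 < m) (R : Finset ℕ)
    (hR : ∀ r ∈ R, ∀ r' ∈ R, r ≠ r' → ∀ y : ℤ, ¬ ((m : ℤ) ^ k ∣ ((r : ℤ) - r' - y ^ k))) :
    ∀ t, ∀ a ∈ digitSet (m ^ k) R t, ∀ b ∈ digitSet (m ^ k) R t, a ≠ b →
      ∀ y : ℤ, (a : ℤ) - b ≠ y ^ k := by
  intro t
  induction t with
  | zero =>
    intro a ha b hb hab
    simp [digitSet] at ha hb
    exact absurd (ha.trans hb.symm) hab
  | succ t ih =>
    intro a ha b hb hab y hy
    simp only [digitSet, mem_image, mem_product, Prod.exists] at ha hb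
    obtain ⟨d, a', ⟨hd, ha'⟩, rfl⟩ := ha
    obtain ⟨e, b', ⟨he, hb'⟩, rfl⟩ := hb
    push_cast at hy
    by_cases hde : d = e
    · subst hde
      have hab' : a' ≠ b' := by
        intro h; apply hab; rw [h]
      have h1 : (m : ℤ) ^ k * ((a' : ℤ) - b') = y ^ k := by rw [← hy]; ring
      have h2 : (m : ℤ) ^ k ∣ y ^ k := ⟨_, h1.symm⟩
      rw [Int.pow_dvd_pow_iff hk] at h2
      obtain ⟨z, rfl⟩ := h2
      have hmk : (m : ℤ) ^ k ≠ 0 := by positivity
      have h3 : (a' : ℤ) - b' = z ^ k := by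
        apply mul_left_cancel₀ hmk
        rw [h1]; ring
      exact ih a' ha' b' hb' hab' z h3
    · apply hR d hd e he hde y
      refine ⟨(b' : ℤ) - a', ?_⟩
      rw [← hy]; ring

/-- Generalised Ruzsa lower bound. -/
theorem ruzsa_general {m k : ℕ} (hk : k ≠ 0) (hm : 2 ≤ m) (R : Finset ℕ) (hRne : R.Nonempty)
    (hlt : ∀ r ∈ R, r < m ^ k)
    (hR : ∀ r ∈ R, ∀ r' ∈ R, r ≠ r' → ∀ y : ℤ, ¬ ((m : ℤ) ^ k ∣ ((r : ℤ) - r' - y ^ k))) :
    ∀ N : ℕ, 1 ≤ N → ∃ A : Finset ℕ, A ⊆ Finset.Icc 1 N ∧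
      (∀ a ∈ A, ∀ b ∈ A, a ≠ b → ∀ y : ℤ, (a : ℤ) - b ≠ y ^ k) ∧
      (N : ℝ) ^ (Real.log R.card / Real.log ((m : ℝ) ^ k)) / R.card ≤ A.card := by
  intro N hN
  set M := m ^ k with hM
  have hM2 : 1 < M := by
    calc 1 < m := by omega
      _ = m ^ 1 := (pow_one m).symm
      _ ≤ m ^ k := Nat.pow_le_pow_right (by omega) (Nat.one_le_iff_ne_zero.mpr hk)
  set t := Nat.log M N with ht
  have h1 : M ^ t ≤ N := Nat.pow_log_le_self M (by omega)
  have h2 : N < M ^ (t + 1) := Nat.lt_pow_succ_log_self hM2 N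
  refine ⟨(digitSet M R t).image (· + 1), ?_, ?_, ?_⟩
  · intro x hx
    simp only [mem_image] at hx
    obtain ⟨a, ha, rfl⟩ := hx
    have := digitSet_lt hlt t a ha
    simp only [mem_Icc]
    omega
  · intro a ha b hb hab y
    simp only [mem_image] at ha hb
    obtain ⟨a', ha', rfl⟩ := ha
    obtain ⟨b', hb', rfl⟩ := hb
    have hab' : a' ≠ b' := by intro h; apply hab; rw [h]
    have := digitSet_avoid hk (by omega) R hR t a' ha' b' hb' hab' y
    push_cast
    intro h
    apply this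
    rw [← h]; ring
  · rw [card_image_of_injective _ (add_left_injective 1), digitSet_card hlt]
    have hc : (0 : ℝ) < R.card := by exact_mod_cast hRne.card_pos
    have hMr : (1 : ℝ) < (M : ℝ) := by exact_mod_cast hM2
    have hlogM : 0 < Real.log (M : ℝ) := Real.log_pos hMr
    have hMcast : ((m : ℝ) ^ k) = (M : ℝ) := by rw [hM]; push_cast; ring
    rw [hMcast]
    set γ := Real.log R.card / Real.log (M : ℝ) with hγ
    have hγ0 : 0 ≤ γ := by
      apply div_nonneg _ hlogM.le
      apply Real.log_nonneg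
      exact_mod_cast hRne.card_pos
    have hMγ : (M : ℝ) ^ γ = R.card := by
      rw [Real.rpow_def_of_pos (by linarith), hγ]
      rw [mul_div_cancel₀ _ hlogM.ne']
      exact Real.exp_log hc
    have h3 : (N : ℝ) ^ γ ≤ ((M : ℝ) ^ (t + 1)) ^ γ := by
      apply Real.rpow_le_rpow (by positivity) _ hγ0
      exact_mod_cast h2.le
    have h4 : ((M : ℝ) ^ (t + 1)) ^ γ = (R.card : ℝ) ^ (t + 1) := by
      rw [← Real.rpow_natCast, ← Real.rpow_mul (by linarith), mul_comm, Real.rpow_mul (by linarith),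
        hMγ, Real.rpow_natCast]
    rw [div_le_iff₀ hc]
    push_cast
    calc (N : ℝ) ^ γ ≤ (R.card : ℝ) ^ (t + 1) := by rw [← h4]; exact h3
      _ = (R.card : ℝ) ^ t * R.card := by ring

end Vale.Agent.Lib.P042
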