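import Vale.Agent.Lib.P042.Ruzsa

/-!
Ruzsa's original form of the digit construction: a squarefree modulus `m` and a set `R0` of residues
modulo `m` no two of which differ by a `k`-th power residue modulo `m`.
-/

namespace Vale.Agent.Lib.P042

open Finset

/-- all `r + m s` with `r` in `R0` and `s < m ^ (k - 1)` -/
def liftSet (m k : ℕ) (R0 : Finset ℕ) : Finset ℕ :=
  (R0 ×ˢ range (m ^ (k - 1))).image (fun x => x.1 + m * x.2)

lemma liftSet_card {m k : ℕ} {R0 : Finset ℕ} (hlt : ∀ r ∈ R0, r < m) :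
    (liftSet m k R0).card = R0.card * m ^ (k - 1) := by
  unfold liftSet
  rw [card_image_of_injOn, card_product, card_range]
  intro x hx y hy hxy
  simp only [coe_product, Set.mem_prod, mem_coe] at hx hy
  have hx1 := hlt _ hx.1
  have hy1 := hlt _ hy.1
  simp only at hxy
  have hMpos : 0 < m := by omega
  have e1 : (x.1 + m * x.2) % m = x.1 := by
    rw [Nat.add_mul_mod_self_left, Nat.mod_eq_of_lt hx1]
  have e2 : (y.1 + m * y.2) % m = y.1 := by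
    rw [Nat.add_mul_mod_self_left, Nat.mod_eq_of_lt hy1]
  have h1 : x.1 = y.1 := by rw [← e1, ← e2, hxy]
  have h2 : m * x.2 = m * y.2 := by omega
  have h3 : x.2 = y.2 := Nat.eq_of_mul_eq_mul_left hMpos h2
  exact Prod.ext h1 h3

lemma liftSet_lt {m k : ℕ} (hk : k ≠ 0) {R0 : Finset ℕ} (hlt : ∀ r ∈ R0, r < m) :
    ∀ r ∈ liftSet m k R0, r < m ^ k := by
  intro r hr
  simp only [liftSet, mem_image, mem_product, mem_range, Prod.exists] at hr
  obtain ⟨a, s, ⟨ha, hs⟩, rfl⟩ := hr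
  have h1 := hlt a ha
  obtain ⟨j, rfl⟩ : ∃ j, k = j + 1 := ⟨k - 1, by omega⟩
  simp only [Nat.add_sub_cancel] at hs
  calc a + m * s < m + m * s := by omega
    _ = m * (s + 1) := by ring
    _ ≤ m * m ^ j := Nat.mul_le_mul_left _ hs
    _ = m ^ (j + 1) := by ring

lemma liftSet_avoid {m k : ℕ} (hk : k ≠ 0) (hm : 0 < m) (hsq : Squarefree m) {R0 : Finset ℕ}
    (hR0 : ∀ r ∈ R0, ∀ r' ∈ R0, r ≠ r' → ∀ y : ℤ, ¬ ((m : ℤ) ∣ ((r : ℤ) - r' - y ^ k))) :
    ∀ r ∈ liftSet m k R0, ∀ r' ∈ liftSet m k R0, r ≠ r' →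
      ∀ y : ℤ, ¬ ((m : ℤ) ^ k ∣ ((r : ℤ) - r' - y ^ k)) := by
  intro r hr r' hr' hne y hdvd
  simp only [liftSet, mem_image, mem_product, mem_range, Prod.exists] at hr hr'
  obtain ⟨a, s, ⟨ha, hs⟩, rfl⟩ := hr
  obtain ⟨b, s', ⟨hb, hs'⟩, rfl⟩ := hr'
  obtain ⟨j, rfl⟩ : ∃ j, k = j + 1 := ⟨k - 1, by omega⟩
  simp only [Nat.add_sub_cancel] at hs hs'
  push_cast at hdvd
  have hmm : (m : ℤ) ∣ (m : ℤ) ^ (j + 1) := Dvd.intro_left _ (pow_succ _ _).symm
  by_cases hab : a = b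
  · subst hab
    have hss : s ≠ s' := by intro h; apply hne; rw [h]
    have h1 : (m : ℤ) ∣ y ^ (j + 1) := by
      have h2 : (m : ℤ) ∣ ((a : ℤ) + m * s - (a + m * s') - y ^ (j + 1)) := hmm.trans hdvd
      have h3 : (m : ℤ) ∣ (m : ℤ) * ((s : ℤ) - s') := Dvd.intro _ rfl
      have h4 := dvd_sub h3 h2
      have e : (m : ℤ) * ((s : ℤ) - s') - ((a : ℤ) + m * s - (a + m * s') - y ^ (j + 1))
          = y ^ (j + 1) := by ring
      rwa [e] at h4
    have hsqz : Squarefree (m : ℤ) := Int.squarefree_natCast.mpr hsq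
    rw [hsqz.dvd_pow_iff_dvd (Nat.succ_ne_zero j)] at h1
    have h5 : (m : ℤ) ^ (j + 1) ∣ y ^ (j + 1) := pow_dvd_pow_of_dvd h1 _
    have h6 : (m : ℤ) ^ (j + 1) ∣ (m : ℤ) * ((s : ℤ) - s') := by
      have h7 := dvd_add hdvd h5
      have e : ((a : ℤ) + m * s - (a + m * s') - y ^ (j + 1)) + y ^ (j + 1)
          = (m : ℤ) * ((s : ℤ) - s') := by ring
      rwa [e] at h7
    have hm0 : (m : ℤ) ≠ 0 := by exact_mod_cast hm.ne'
    have h8 : (m : ℤ) ^ j ∣ ((s : ℤ) - s') := by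
      rw [pow_succ, mul_comm] at h6
      exact (mul_dvd_mul_iff_left hm0).mp h6
    have h9 : ((s : ℤ) - s') = 0 := by
      apply Int.eq_zero_of_abs_lt_dvd h8
      have hs1 : (s : ℤ) < (m : ℤ) ^ j := by exact_mod_cast hs
      have hs2 : (s' : ℤ) < (m : ℤ) ^ j := by exact_mod_cast hs'
      have hs3 : (0 : ℤ) ≤ s := by positivity
      have hs4 : (0 : ℤ) ≤ s' := by positivity
      rw [abs_lt]; constructor <;> linarith
    apply hss
    have : (s : ℤ) = s' := by linarith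
    exact_mod_cast this
  · apply hR0 a ha b hb hab y
    have h2 : (m : ℤ) ∣ ((a : ℤ) + m * s - (b + m * s') - y ^ (j + 1)) := hmm.trans hdvd
    have h3 : (m : ℤ) ∣ (m : ℤ) * ((s : ℤ) - s') := Dvd.intro _ rfl
    have h4 := dvd_sub h2 h3
    have e : ((a : ℤ) + m * s - (b + m * s') - y ^ (j + 1)) - (m : ℤ) * ((s : ℤ) - s')
        = (a : ℤ) - b - y ^ (j + 1) := by ring
    rwa [e] at h4

/-- Ruzsa's lower bound, squarefree modulus. -/
theorem ruzsa_squarefree {m k : ℕ} (hk : k ≠ 0) (hm : 2 ≤ m) (hsq : Squarefree m)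
    (R0 : Finset ℕ) (hne : R0.Nonempty) (hlt : ∀ r ∈ R0, r < m)
    (hR0 : ∀ r ∈ R0, ∀ r' ∈ R0, r ≠ r' → ∀ y : ℤ, ¬ ((m : ℤ) ∣ ((r : ℤ) - r' - y ^ k))) :
    ∀ N : ℕ, 1 ≤ N → ∃ A : Finset ℕ, A ⊆ Finset.Icc 1 N ∧
      (∀ a ∈ A, ∀ b ∈ A, a ≠ b → ∀ y : ℤ, (a : ℤ) - b ≠ y ^ k) ∧
      (N : ℝ) ^ (Real.log ((R0.card * m ^ (k - 1) : ℕ) : ℝ) / Real.log ((m : ℝ) ^ k))
        / ((R0.card * m ^ (k - 1) : ℕ) : ℝ) ≤ A.card := by
  have hcard := liftSet_card (k := k) hlt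
  have hne' : (liftSet m k R0).Nonempty := by
    rw [← card_pos, hcard]
    have := hne.card_pos
    positivity
  have := ruzsa_general hk hm (liftSet m k R0) hne' (liftSet_lt hk hlt)
    (liftSet_avoid hk (by omega) hsq hR0)
  rw [hcard] at this
  exact this

end Vale.Agent.Lib.P042
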